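import Vale.Agent.P325h37.Prop

namespace Vale.Agent.P325h37

open Finset

variable {V L Γ : Type}

theorem list_ind_pos {A : Type} (l : List A) (q : A → Prop) [DecidablePred q]
    (h : (l.map fun f => if q f then 1 else 0).sum = 0) : ∀ f ∈ l, ¬ q f := by
  induction l with
  | nil => simp
  | cons a l ih =>
    simp only [List.map_cons, List.sum_cons, Nat.add_eq_zero_iff] at h
    intro f hf
    rcases List.mem_cons.1 hf with rfl | hf
    · intro hq
      rw [if_pos hq] at h
      omega
    · exact ih h.2 f hf

theorem sum_list {A : Type} [Fintype Γ] (l : List A) (q : Γ → A → ℕ) (c : ℕ)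
    (h : ∀ f ∈ l, ∑ g, q g f = c) : ∑ g, (l.map (q g)).sum = l.length * c := by
  induction l with
  | nil => simp
  | cons a l ih =>
    simp only [List.map_cons, List.sum_cons, List.length_cons]
    rw [Finset.sum_add_distrib, h a (by simp), ih fun f hf => h f (by simp [hf])]
    ring

theorem main [Fintype V] [DecidableEq V] [DecidableEq L] [Group Γ] [Fintype Γ] [MulAction Γ V]
    (E : Finset (V × V)) (hE : ∀ g : Γ, ∀ e ∈ E, g • e ∈ E)
    (hT : ∀ e ∈ E, ∀ f ∈ E, ∃ g : Γ, g • e = f) (r : V) (P : V → List V) (D : ℕ)
    (hP : ∀ u, endOf r (P u) = u ∧ (∀ e ∈ arcs r (P u), e ∈ E) ∧ (P u).length ≤ D)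
    (π : V → V → Equiv.Perm L) (x : V → L) :
    ∑ g : Γ, viol π E (cand π r P g (x (g • r)))
      ≤ (2 * D + 1) * (Fintype.card Γ * viol π E x) := by
  classical
  set B : Finset (V × V) := E.filter fun e => x e.2 ≠ π e.1 e.2 (x e.1) with hB
  have hBE : B ⊆ E := Finset.filter_subset _ _
  have hb : viol π E x = B.card := rfl
  -- correct propagation
  have hcor : ∀ (g : Γ) (u : V), (∀ f ∈ arcs r (P u), g • f ∉ B) →
      cand π r P g (x (g • r)) (g • u) = x (g • u) := by
    intro g u hu
    unfold cand
    rw [inv_smul_smul, run_eq π x, endOf_map, (hP u).1]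
    intro e he
    rw [arcs_map] at he
    obtain ⟨f, hf, rfl⟩ := List.mem_map.1 he
    have h1 := hu f hf
    have h2 := hE g f ((hP u).2.1 f hf)
    by_contra hne
    exact h1 (Finset.mem_filter.2 ⟨h2, hne⟩)
  -- bound for one g
  have hone : ∀ g : Γ, viol π E (cand π r P g (x (g • r))) ≤
      ∑ e ∈ E, (((arcs r (P e.1)).map fun f => if g • f ∈ B then 1 else 0).sum
        + ((arcs r (P e.2)).map fun f => if g • f ∈ B then 1 else 0).sum
        + if g • e ∈ B then 1 else 0) := by
    intro g
    set y := cand π r P g (x (g • r)) with hy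
    have h1 : viol π E y
        = (E.filter fun e => y (g • e).2 ≠ π (g • e).1 (g • e).2 (y (g • e).1)).card := by
      unfold viol
      apply Finset.card_bij (fun e _ => g⁻¹ • e)
      · intro e he
        rw [mem_filter] at he ⊢
        refine ⟨hE _ _ he.1, ?_⟩
        rw [smul_inv_smul]
        exact he.2
      · intro a _ b _ hab
        exact smul_left_cancel _ hab
      · intro f hf
        rw [mem_filter] at hf
        refine ⟨g • f, ?_, by simp⟩
        rw [mem_filter]
        exact ⟨hE _ _ hf.1, hf.2⟩
    rw [h1, Finset.card_filter]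
    refine Finset.sum_le_sum fun e he => ?_
    by_cases hq : y (g • e).2 ≠ π (g • e).1 (g • e).2 (y (g • e).1)
    · rw [if_pos hq]
      by_contra hlt
      push Not at hlt
      have h0 : ((arcs r (P e.1)).map fun f => if g • f ∈ B then 1 else 0).sum
        + ((arcs r (P e.2)).map fun f => if g • f ∈ B then 1 else 0).sum
        + (if g • e ∈ B then 1 else 0) = 0 := by omega
      have h0a : ((arcs r (P e.1)).map fun f => if g • f ∈ B then 1 else 0).sum = 0 := by omega
      have h0b : ((arcs r (P e.2)).map fun f => if g • f ∈ B then 1 else 0).sum = 0 := by omega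
      have h0c : (if g • e ∈ B then 1 else 0) = 0 := by omega
      have ha := list_ind_pos _ (fun f => g • f ∈ B) h0a
      have hb' := list_ind_pos _ (fun f => g • f ∈ B) h0b
      have hc : g • e ∉ B := by
        intro hmem
        rw [if_pos hmem] at h0c
        omega
      have h3 := hcor g e.1 ha
      have h4 := hcor g e.2 hb'
      apply hq
      have h5 : y (g • e).2 = x (g • e).2 := h4
      have h6 : y (g • e).1 = x (g • e).1 := h3
      rw [h5, h6]
      by_contra hne
      exact hc (Finset.mem_filter.2 ⟨hE g e he, hne⟩)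
    · rw [if_neg hq]
      exact Nat.zero_le _
  -- summation
  rcases E.eq_empty_or_nonempty with hEe | ⟨e0, he0⟩
  · have : ∀ g : Γ, viol π E (cand π r P g (x (g • r))) = 0 := by
      intro g
      have := hone g
      rw [hEe] at this ⊢
      simpa using this
    rw [Finset.sum_congr rfl fun g _ => this g]
    simp
  · set c := (univ.filter fun g : Γ => g • e0 ∈ B).card with hc
    have hcc : ∀ e ∈ E, ∑ g : Γ, (if g • e ∈ B then 1 else 0) = c := by
      intro e he
      rw [← Finset.card_filter]
      exact count_const E B hT e e0 he he0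
    have htot : E.card * c = Fintype.card Γ * B.card := by
      rw [← sum_count (Γ := Γ) E B hBE hE]
      rw [Finset.sum_congr rfl fun e he => count_const E B hT e e0 he he0]
      simp [hc]
    calc ∑ g : Γ, viol π E (cand π r P g (x (g • r)))
        ≤ ∑ g : Γ, ∑ e ∈ E, (((arcs r (P e.1)).map fun f => if g • f ∈ B then 1 else 0).sum
        + ((arcs r (P e.2)).map fun f => if g • f ∈ B then 1 else 0).sum
        + if g • e ∈ B then 1 else 0) := Finset.sum_le_sum fun g _ => hone g
      _ = ∑ e ∈ E, ((P e.1).length * c + (P e.2).length * c + c) := by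
          rw [Finset.sum_comm]
          refine Finset.sum_congr rfl fun e he => ?_
          rw [Finset.sum_add_distrib, Finset.sum_add_distrib, hcc e he]
          rw [sum_list (arcs r (P e.1)) (fun g f => if g • f ∈ B then 1 else 0) c
            fun f hf => hcc f ((hP e.1).2.1 f hf)]
          rw [sum_list (arcs r (P e.2)) (fun g f => if g • f ∈ B then 1 else 0) c
            fun f hf => hcc f ((hP e.2).2.1 f hf)]
          rw [arcs_length, arcs_length]
      _ ≤ ∑ e ∈ E, (2 * D + 1) * c := by
          refine Finset.sum_le_sum fun e _ => ?_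
          have h1 := Nat.mul_le_mul_right c (hP e.1).2.2
          have h2 := Nat.mul_le_mul_right c (hP e.2).2.2
          have h3 : (2 * D + 1) * c = D * c + D * c + c := by ring
          omega
      _ = (2 * D + 1) * (Fintype.card Γ * viol π E x) := by
          rw [Finset.sum_const, smul_eq_mul, hb, ← htot]
          ring

theorem exists_good [Fintype V] [DecidableEq V] [DecidableEq L] [Group Γ] [Fintype Γ]
    [MulAction Γ V] (E : Finset (V × V)) (hE : ∀ g : Γ, ∀ e ∈ E, g • e ∈ E)
    (hT : ∀ e ∈ E, ∀ f ∈ E, ∃ g : Γ, g • e = f) (r : V) (P : V → List V) (D : ℕ)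
    (hP : ∀ u, endOf r (P u) = u ∧ (∀ e ∈ arcs r (P u), e ∈ E) ∧ (P u).length ≤ D)
    (π : V → V → Equiv.Perm L) (x : V → L) :
    ∃ g : Γ, viol π E (cand π r P g (x (g • r))) ≤ (2 * D + 1) * viol π E x := by
  by_contra hcon
  push Not at hcon
  have h := main E hE hT r P D hP π x
  have h2 : ∑ _g : Γ, (2 * D + 1) * viol π E x
      < ∑ g : Γ, viol π E (cand π r P g (x (g • r))) :=
    Finset.sum_lt_sum_of_nonempty ⟨1, mem_univ _⟩ fun g _ => hcon g
  rw [Finset.sum_const, smul_eq_mul, Finset.card_univ] at h2
  have h3 : Fintype.card Γ * ((2 * D + 1) * viol π E x)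
      = (2 * D + 1) * (Fintype.card Γ * viol π E x) := by ring
  omega

end Vale.Agent.P325h37
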