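import Mathlib

namespace Vale.Agent.P325h37

open Finset

variable {V L Γ : Type}

/-- Last vertex of the walk that starts at v and goes through the list. -/
def endOf : V → List V → V
  | v, [] => v
  | _, w :: p => endOf w p

/-- Arcs of that walk. -/
def arcs : V → List V → List (V × V)
  | _, [] => []
  | v, w :: p => (v, w) :: arcs w p

/-- Propagation of the label a along the walk. -/
def run (π : V → V → Equiv.Perm L) : V → L → List V → L
  | _, a, [] => a
  | v, a, w :: p => run π w (π v w a) p

/-- Number of constraints x v = π u v (x u), (u, v) in E, violated by the assignment x. -/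
def viol [DecidableEq L] (π : V → V → Equiv.Perm L) (E : Finset (V × V)) (x : V → L) : ℕ :=
  (E.filter fun e => x e.2 ≠ π e.1 e.2 (x e.1)).card

/-- Propagation from the root g r with label a along the walks P translated by g. -/
def cand [Group Γ] [MulAction Γ V] (π : V → V → Equiv.Perm L) (r : V) (P : V → List V)
    (g : Γ) (a : L) : V → L :=
  fun w => run π (g • r) a ((P (g⁻¹ • w)).map fun v => g • v)

theorem run_eq (π : V → V → Equiv.Perm L) (x : V → L) (p : List V) (v : V)
    (h : ∀ e ∈ arcs v p, x e.2 = π e.1 e.2 (x e.1)) : run π v (x v) p = x (endOf v p) := by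
  induction p generalizing v with
  | nil => rfl
  | cons w p ih =>
    have h1 := h (v, w) (by simp [arcs])
    simp only [run, endOf]
    simp only at h1
    rw [← h1]
    exact ih w fun e he => h e (by simp [arcs, he])

theorem endOf_map [Group Γ] [MulAction Γ V] (g : Γ) (p : List V) (v : V) :
    endOf (g • v) (p.map fun v => g • v) = g • endOf v p := by
  induction p generalizing v with
  | nil => rfl
  | cons w p ih => simp only [List.map, endOf]; exact ih w

theorem arcs_map [Group Γ] [MulAction Γ V] (g : Γ) (p : List V) (v : V) :
    arcs (g • v) (p.map fun v => g • v) = (arcs v p).map fun e => g • e := by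
  induction p generalizing v with
  | nil => rfl
  | cons w p ih =>
    simp only [List.map, arcs]
    rw [ih w]
    rfl

theorem arcs_length (p : List V) (v : V) : (arcs v p).length = p.length := by
  induction p generalizing v with
  | nil => rfl
  | cons w p ih => simp [arcs, ih]

theorem count_const [DecidableEq V] [Group Γ] [Fintype Γ] [MulAction Γ V] (E B : Finset (V × V))
    (hT : ∀ e ∈ E, ∀ f ∈ E, ∃ g : Γ, g • e = f) (e f : V × V) (he : e ∈ E) (hf : f ∈ E) :
    (univ.filter fun g : Γ => g • e ∈ B).card = (univ.filter fun g : Γ => g • f ∈ B).card := by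
  obtain ⟨h, hh⟩ := hT e he f hf
  symm
  apply Finset.card_bij (fun g _ => g * h)
  · intro g hg
    simp only [mem_filter, mem_univ, true_and] at hg ⊢
    rw [mul_smul, hh]; exact hg
  · intro a _ b _ hab
    exact mul_right_cancel hab
  · intro g hg
    simp only [mem_filter, mem_univ, true_and] at hg
    refine ⟨g * h⁻¹, ?_, by simp⟩
    simp only [mem_filter, mem_univ, true_and]
    rw [← hh, mul_smul, inv_smul_smul]; exact hg

theorem sum_count [DecidableEq V] [Group Γ] [Fintype Γ] [MulAction Γ V] (E B : Finset (V × V))
    (hB : B ⊆ E) (hE : ∀ g : Γ, ∀ e ∈ E, g • e ∈ E) :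
    ∑ e ∈ E, (univ.filter fun g : Γ => g • e ∈ B).card = Fintype.card Γ * B.card := by
  have h1 : ∀ g : Γ, (E.filter fun e => g • e ∈ B).card = B.card := by
    intro g
    apply Finset.card_bij (fun e _ => g • e)
    · intro e he
      exact (mem_filter.1 he).2
    · intro a _ b _ hab
      exact smul_left_cancel g hab
    · intro f hf
      refine ⟨g⁻¹ • f, ?_, by simp⟩
      rw [mem_filter]
      exact ⟨hE _ _ (hB hf), by simpa using hf⟩
  simp only [Finset.card_filter]
  rw [Finset.sum_comm]
  have h2 : ∀ g : Γ, ∑ e ∈ E, (if g • e ∈ B then 1 else 0) = B.card := by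
    intro g
    rw [← h1 g, Finset.card_filter]
  rw [Finset.sum_congr rfl fun g _ => h2 g]
  simp

end Vale.Agent.P325h37
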